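/-
S0351 (row 227) Lubin-Tate stable primes: shared definitions.  See findings row 227 (math-proof).
Everything in Crest/Agent/Lib/LT is part of this proof.
-/
import Mathlib
import Crest.Prelude.Def_LubinTate

set_option autoImplicit false

open Crest.LubinTate

namespace Crest.Agent.LTSkel

/-! ### Formal sums of power series under a formal group -/

section FG
variable {S : Type*} [CommRing S]

/-- `a +_F b` for one-variable power series without constant term. -/
noncomputable def fgAdd (F : FormalGroup S) (a b : PowerSeries S) : PowerSeries S :=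
  F.toPowerSeries.subst ![a, b]

/-- Iterated formal sum `f 0 +_F (f 1 +_F ( ... ))` of a finite family. -/
noncomputable def fgSumFin (F : FormalGroup S) : {m : ℕ} → (Fin m → PowerSeries S) → PowerSeries S
  | 0, _ => 0
  | _ + 1, f => fgAdd F (f 0) (fgSumFin F (fun i => f i.succ))

/-- The automorphism `X +_F π` attached to an endomorphism `π`. -/
noncomputable def aOf (F : FormalGroup S) (π : PowerSeries S) : PowerSeries S :=
  fgAdd F PowerSeries.X π

end FG

/-! ### Evaluation of power series on the open unit polydisc of an ultrametric complete field -/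

section Eval
variable {R : Type*} [NormedField R]

/-- All coefficients have norm at most one. -/
def Bdd {σ : Type*} (f : MvPowerSeries σ R) : Prop := ∀ m, ‖MvPowerSeries.coeff m f‖ ≤ 1

/-- All coefficients of a one variable series have norm at most one. -/
def Bdd1 (f : PowerSeries R) : Prop := ∀ j, ‖PowerSeries.coeff j f‖ ≤ 1

/-- Value of a multivariate power series at a point (meaningful for `Bdd f` and `‖x i‖ < 1`). -/
noncomputable def ev {σ : Type*} (f : MvPowerSeries σ R) (x : σ → R) : R :=
  ∑' m : σ →₀ ℕ, MvPowerSeries.coeff m f * m.prod (fun i e => x i ^ e)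

/-- Value of a one-variable power series at a point. -/
noncomputable def ev1 (f : PowerSeries R) (x : R) : R :=
  ∑' j : ℕ, PowerSeries.coeff j f * x ^ j

/-- `x +_F y` on points. -/
noncomputable def padd (F : FormalGroup R) (x y : R) : R := ev F.toPowerSeries ![x, y]

end Eval

/-! ### The coefficient ring of a height stratum -/

section Strata
variable (p : ℕ) [Fact p.Prime] (n : ℕ)

/-- The Witt vectors of the residue field. -/
abbrev WK : Type := WittVector p (GaloisField p n)

/-- The maximal ideal of `E₀`. -/
noncomputable abbrev mE : Ideal (LTRing p n) := RingHom.ker (LTRing.residue p n)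

/-- The variable `u_j` of `E₀` (`1 ≤ j ≤ n-1`), `u_n = 1`, `u_0 = p`, and `0` beyond. -/
noncomputable def uE (j : ℕ) : LTRing p n :=
  if _h0 : j = 0 then (p : LTRing p n)
  else if h : j < n then MvPowerSeries.X (⟨j - 1, by omega⟩ : Fin (n - 1))
  else if j = n then 1 else 0

/-- Power series ring of the stratum `k`: variables `w_0, …, w_{r-1}`, `r = n - k`, standing for
`u_k, …, u_{n-1}`.  -/
abbrev AA (k : ℕ) : Type := MvPowerSeries (Fin (n - k)) (GaloisField p n)

/-- The variable `w_j`, with `w_r = 1` and `0` beyond. -/
noncomputable def wA (k : ℕ) (j : ℕ) : AA p n k :=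
  if h : j < n - k then MvPowerSeries.X (⟨j, h⟩ : Fin (n - k))
  else if j = n - k then 1 else 0

/-- Coefficient ring of the standard law: polynomials in `u_1, …, u_{n-1}` over `ℤ_[p]`. -/
abbrev A0 : Type := MvPolynomial (Fin (n - 1)) ℤ_[p]

/-- The variable `u_j` of `A0` for `1 ≤ j ≤ n-1`, `u_n = 1`; `0` for `j = 0` and beyond `n`
(note: in `A0` we do not set `u_0 = p`; sums over `j` start at `1`). -/
noncomputable def uA (j : ℕ) : A0 p n :=
  if h : 1 ≤ j ∧ j < n then MvPolynomial.X (⟨j - 1, by omega⟩ : Fin (n - 1))
  else if j = n then 1 else 0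

end Strata

section Ball
/-- Points of the open unit polydisc. -/
def BallPt (σ : Type*) (R : Type*) [NormedField R] : Type _ := {x : σ → R // ∀ i, ‖x i‖ < 1}
end Ball

end Crest.Agent.LTSkel
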