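/-
S0351: API for evaluating power series on the open unit polydisc of a complete ultrametric field.
MODULE A1.  All statements are `sorry` until claimed in findings (row 227).
-/
import Crest.Agent.Lib.LTSkel.Defs

set_option autoImplicit false

open Crest.LubinTate

namespace Crest.Agent.LTSkel

variable {R : Type*} [NormedField R] [IsUltrametricDist R] [CompleteSpace R]
variable {σ τ : Type*} [Finite σ] [Finite τ]

theorem Bdd.add {f g : MvPowerSeries σ R} (hf : Bdd f) (hg : Bdd g) : Bdd (f + g) := sorry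
theorem Bdd.mul {f g : MvPowerSeries σ R} (hf : Bdd f) (hg : Bdd g) : Bdd (f * g) := sorry
theorem Bdd.pow {f : MvPowerSeries σ R} (hf : Bdd f) (m : ℕ) : Bdd (f ^ m) := sorry
/-- Substitution preserves boundedness. -/
theorem Bdd.subst {f : MvPowerSeries τ R} {g : τ → MvPowerSeries σ R} (hf : Bdd f)
    (hg : ∀ j, Bdd (g j)) (hg0 : ∀ j, MvPowerSeries.constantCoeff (g j) = 0) :
    Bdd (f.subst g) := sorry

theorem summable_ev {f : MvPowerSeries σ R} {x : σ → R} (hf : Bdd f) (hx : ∀ i, ‖x i‖ < 1) :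
    Summable (fun m : σ →₀ ℕ => MvPowerSeries.coeff m f * m.prod (fun i e => x i ^ e)) := sorry

theorem norm_ev_le_one {f : MvPowerSeries σ R} {x : σ → R} (hf : Bdd f) (hx : ∀ i, ‖x i‖ < 1) :
    ‖ev f x‖ ≤ 1 := sorry

/-- `ev` of a series of order `≥ d` is bounded by `ρ^d`, `ρ ≥ ‖x i‖`. -/
theorem norm_ev_le_of_order {f : MvPowerSeries σ R} {x : σ → R} (hf : Bdd f) (hx : ∀ i, ‖x i‖ < 1)
    {ρ : ℝ} (hρ : ∀ i, ‖x i‖ ≤ ρ) (d : ℕ)
    (hd : ∀ m : σ →₀ ℕ, m.degree < d → MvPowerSeries.coeff m f = 0) :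
    ‖ev f x‖ ≤ ρ ^ d := sorry

theorem ev_add {f g : MvPowerSeries σ R} {x : σ → R} (hf : Bdd f) (hg : Bdd g)
    (hx : ∀ i, ‖x i‖ < 1) : ev (f + g) x = ev f x + ev g x := sorry
theorem ev_mul {f g : MvPowerSeries σ R} {x : σ → R} (hf : Bdd f) (hg : Bdd g)
    (hx : ∀ i, ‖x i‖ < 1) : ev (f * g) x = ev f x * ev g x := sorry
theorem ev_C (c : R) (x : σ → R) : ev (MvPowerSeries.C (σ := σ) c) x = c := sorry
theorem ev_X [DecidableEq σ] (i : σ) (x : σ → R) (hx : ∀ i, ‖x i‖ < 1) :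
    ev (MvPowerSeries.X i : MvPowerSeries σ R) x = x i := sorry
theorem ev_zero_point {f : MvPowerSeries σ R} : ev f (fun _ => 0) = MvPowerSeries.constantCoeff f := sorry

/-- Chain rule for evaluation. -/
theorem ev_subst {f : MvPowerSeries τ R} {g : τ → MvPowerSeries σ R} {x : σ → R} (hf : Bdd f)
    (hg : ∀ j, Bdd (g j)) (hg0 : ∀ j, MvPowerSeries.constantCoeff (g j) = 0)
    (hx : ∀ i, ‖x i‖ < 1) :
    ev (f.subst g) x = ev f (fun j => ev (g j) x) := sorry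

/-- One variable versions -/
theorem ev1_eq_ev (f : PowerSeries R) (x : R) : ev1 f x = ev (σ := Unit) f (fun _ => x) := sorry

theorem ev1_subst {f : PowerSeries R} {g : MvPowerSeries σ R} {x : σ → R} (hf : Bdd1 f)
    (hg : Bdd g) (hg0 : MvPowerSeries.constantCoeff g = 0) (hx : ∀ i, ‖x i‖ < 1) :
    ev (f.subst g) x = ev1 f (ev g x) := sorry

section points
variable (F : FormalGroup R) (hF : Bdd F.toPowerSeries)
include hF

theorem norm_padd_le {x y : R} (hx : ‖x‖ < 1) (hy : ‖y‖ < 1) : ‖padd F x y‖ ≤ max ‖x‖ ‖y‖ := sorry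
theorem norm_padd_sub_le {x y : R} (hx : ‖x‖ < 1) (hy : ‖y‖ < 1) :
    ‖padd F x y - x - y‖ ≤ ‖x‖ * ‖y‖ := sorry
theorem padd_zero {x : R} (hx : ‖x‖ < 1) : padd F x 0 = x := sorry
theorem zero_padd {x : R} (hx : ‖x‖ < 1) : padd F 0 x = x := sorry
theorem padd_assoc {x y z : R} (hx : ‖x‖ < 1) (hy : ‖y‖ < 1) (hz : ‖z‖ < 1) :
    padd F (padd F x y) z = padd F x (padd F y z) := sorry
theorem padd_comm [F.IsComm] {x y : R} (hx : ‖x‖ < 1) (hy : ‖y‖ < 1) :
    padd F x y = padd F y x := sorry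
theorem norm_padd_sub_padd_le {x x' y : R} (hx : ‖x‖ < 1) (hx' : ‖x'‖ < 1) (hy : ‖y‖ < 1) :
    ‖padd F x y - padd F x' y‖ ≤ ‖x - x'‖ := sorry

/-- `φ` a hom `F → G` of bounded laws evaluates to an additive map. -/
theorem ev1_hom {G : FormalGroup R} (hG : Bdd G.toPowerSeries) {φ : PowerSeries R} (hφ : Bdd1 φ)
    (h : IsFGHom F G φ) {x y : R} (hx : ‖x‖ < 1) (hy : ‖y‖ < 1) :
    ev1 φ (padd F x y) = padd G (ev1 φ x) (ev1 φ y) := sorry

/-- Evaluating `mulSeries`. -/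
theorem ev1_mulSeries_succ {x : R} (hx : ‖x‖ < 1) (m : ℕ) :
    ev1 (mulSeries F (m + 1)) x = padd F (ev1 (mulSeries F m) x) x := sorry

end points

end Crest.Agent.LTSkel
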