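/-
S0351 MODULE A: char p stratum, point level. Math note section 2.  This file states the final
analysis theorem; its proof is assembled from Crest/Agent/Lib/LT/CharP/*.
-/
import Crest.Agent.Lib.LTSkel.Eval

set_option autoImplicit false

open Crest.LubinTate

namespace Crest.Agent.LTSkel

variable {p : ℕ} [Fact p.Prime] {n k : ℕ}
variable {R : Type} [NontriviallyNormedField R] [IsUltrametricDist R] [CompleteSpace R] [IsAlgClosed R]
  [CharP R p] [Algebra (GaloisField p n) R]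

/-- Evaluation `AA k → R` at a point of the open polydisc. -/
noncomputable def evA (ξ : BallPt (Fin (n - k)) R) : AA p n k →+* R := sorry

theorem evA_apply (ξ : BallPt (Fin (n - k)) R) (f : AA p n k) :
    evA ξ f = ev (MvPowerSeries.map (algebraMap (GaloisField p n) R) f) ξ.1 := sorry

/-- MAIN THEOREM, char p stratum. -/
theorem charP_analysis (hk : 1 ≤ k) (hkn : k < n)
    (HW : FormalGroup (AA p n k)) [HW.IsComm]
    (hp : mulSeries HW p = fgSumFin HW (fun j : Fin (n - k + 1) =>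
        PowerSeries.C (wA p n k j) * PowerSeries.X ^ (p ^ (k + (j : ℕ)))))
    (Γ : FormalGroup (GaloisField p n)) (hΓ : HW.map (MvPowerSeries.constantCoeff (σ := Fin (n - k))) = Γ)
    (hΓC : ∀ c : GaloisField p n, IsFGHom Γ Γ (PowerSeries.C c * PowerSeries.X))
    (hΓF : IsFGHom Γ Γ (PowerSeries.X ^ p))
    (ξ : BallPt (Fin (n - k)) R) (hξ : ξ.1 ⟨0, by omega⟩ ≠ 0)
    (f : AA p n k) (hf : f ≠ 0)
    (M0 : ℕ) (w : PowerSeries (GaloisField p n) → BallPt (Fin (n - k)) R)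
    (θ : PowerSeries (GaloisField p n) → PowerSeries R) (ρ : ℝ) (hρ : ρ < 1)
    (hfam : ∀ π, IsFGHom Γ Γ π → (∀ i < M0, PowerSeries.coeff i π = 0) →
      Bdd1 (θ π) ∧ IsFGHom (HW.map (evA (w π))) (HW.map (evA ξ)) (θ π) ∧
      (∀ j, ‖PowerSeries.coeff j (θ π) -
        algebraMap (GaloisField p n) R (PowerSeries.coeff j (aOf Γ π))‖ ≤ ρ) ∧
      evA (w π) f = 0)
    (hcont : ∀ ε : ℝ, 0 < ε → ∀ B : ℕ, ∃ M, ∀ π, IsFGHom Γ Γ π → (∀ i < M, PowerSeries.coeff i π = 0) →
      (∀ j, ‖(w π).1 j - ξ.1 j‖ < ε) ∧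
      ∀ j ≤ B, ‖PowerSeries.coeff j (θ π) - PowerSeries.coeff j (PowerSeries.X : PowerSeries R)‖ < ε) :
    False := sorry

end Crest.Agent.LTSkel
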