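/-
S0351 MODULE C3: formal-group algebra over an arbitrary ring: heights are iso invariant, homs in char p.
Math note (0a).  No analysis here.
-/
import Crest.Agent.Lib.LTSkel.Defs

set_option autoImplicit false

open Crest.LubinTate

namespace Crest.Agent.LTSkel

variable {S : Type*} [CommRing S]

/-- `[m+k] = [m] +_F [k]`. -/
theorem mulSeries_add (F : FormalGroup S) [F.IsComm] (a b : ℕ) :
    mulSeries F (a + b) = fgAdd F (mulSeries F a) (mulSeries F b) := sorry

/-- `[m]` is an endomorphism. -/
theorem mulSeries_isHom (F : FormalGroup S) [F.IsComm] (m : ℕ) : IsFGHom F F (mulSeries F m) := sorry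

/-- homs commute with `[m]`. -/
theorem hom_comp_mulSeries {F G : FormalGroup S} {φ : PowerSeries S} (hφ : IsFGHom F G φ) (m : ℕ) :
    PowerSeries.subst (mulSeries F m) φ = PowerSeries.subst φ (mulSeries G m) := sorry

theorem mulSeries_map {T : Type*} [CommRing T] (F : FormalGroup S) (f : S →+* T) (m : ℕ) :
    mulSeries (F.map f) m = PowerSeries.map f (mulSeries F m) := sorry

/-- `[p^(a+b)] = [p^a] ∘ [p^b]`. -/
theorem mulSeries_mul (F : FormalGroup S) [F.IsComm] (a b : ℕ) :
    mulSeries F (a * b) = PowerSeries.subst (mulSeries F b) (mulSeries F a) := sorry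

/-- coefficient of `X` in `[m]`. -/
theorem coeff_one_mulSeries (F : FormalGroup S) (m : ℕ) :
    PowerSeries.coeff 1 (mulSeries F m) = (m : S) := sorry

/-- `p`-power lowest term: over an `𝔽_p`-algebra, a hom `≡ 0 mod X^d` has coefficient `c` of `X^d`
with `c = 0` unless `d` is a power of `p`. -/
theorem hom_lowest_term (p : ℕ) [Fact p.Prime] (hS : (p : S) = 0) {F G : FormalGroup S}
    {φ : PowerSeries S} (hφ : IsFGHom F G φ) (d : ℕ) (hd : 1 ≤ d)
    (hlow : ∀ i < d, PowerSeries.coeff i φ = 0) (hd' : ¬ ∃ m, d = p ^ m) :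
    PowerSeries.coeff d φ = 0 := sorry

section height
open scoped Classical
variable (p : ℕ) [Fact p.Prime] (n : ℕ)

/-- Pushforward of height ideals. -/
theorem heightIdeal_map (H : FormalGroup (LTRing p n)) (φ : LTRing p n →+* LTRing p n) (h : ℕ) :
    heightIdeal p n (H.map φ) h = (heightIdeal p n H h).map φ := sorry

/-- Height ideals are isomorphism invariant. -/
theorem heightIdeal_iso {F G : FormalGroup (LTRing p n)} [F.IsComm] [G.IsComm]
    {θ : PowerSeries (LTRing p n)} (hθ : IsFGHom F G θ)
    (hu : IsUnit (PowerSeries.coeff 1 θ)) (h : ℕ) :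
    heightIdeal p n F h = heightIdeal p n G h := sorry

end height

/-- Rigidity: an automorphism-like hom `F → F` over a complete local ring `≡ 0 mod m` vanishes. Used for uniqueness of `θ`. -/
theorem hom_unique_of_reduction_LT (p : ℕ) [Fact p.Prime] (n : ℕ)
    {F G : FormalGroup (LTRing p n)} [F.IsComm] [G.IsComm]
    (hG : mulSeries (G.map (LTRing.residue p n)) p = PowerSeries.X ^ (p ^ n))
    {θ θ' : PowerSeries (LTRing p n)} (hθ : IsFGHom F G θ) (hθ' : IsFGHom F G θ')
    (h : PowerSeries.map (LTRing.residue p n) θ = PowerSeries.map (LTRing.residue p n) θ') :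
    θ = θ' := sorry

end Crest.Agent.LTSkel
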