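/-
S0351 MODULE C1 (standard law).  Hazewinkel's functional equation lemma for the law with
`log X = ∑ λ_m X^{p^m}`, `p λ_m = ∑_{j=1}^{min(m,n)} λ_{m-j} u_j^{p^{m-j}}`, over `A0 = ℤ_[p][u_1..u_{n-1}]`, `u_n = 1`.
Math: findings row 227, section (0b).  Only the interface `IsStdLaw` is used elsewhere.
-/
import Crest.Agent.Lib.LTSkel.Defs

set_option autoImplicit false

open Crest.LubinTate

namespace Crest.Agent.LTSkel

variable (p : ℕ) [Fact p.Prime] (n : ℕ)

/-- log coefficients over a `ℚ`-algebra, given the values `v j` of `u_j`. -/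
noncomputable def lam {S : Type*} [CommRing S] [Algebra ℚ S] (v : ℕ → S) : ℕ → S
  | 0 => 1
  | (m + 1) => ((p : ℚ)⁻¹) •
      ∑ j : Fin (min (m + 1) n), (lam v (m + 1 - (j + 1))) * v (j + 1) ^ (p ^ (m + 1 - (j + 1)))
decreasing_by
  all_goals omega

open Classical in
/-- The log series attached to a coefficient sequence. -/
noncomputable def logSeries {S : Type*} [CommRing S] (l : ℕ → S) : PowerSeries S :=
  PowerSeries.mk fun d => if ∃ m, d = p ^ m then l (Nat.log p d) else 0

/-- `u ↦ 0` on `A0`. -/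
noncomputable def evalZero : A0 p n →+* ℤ_[p] :=
  (MvPolynomial.aeval (R := ℤ_[p]) (fun _ : Fin (n - 1) => (0 : ℤ_[p]))).toRingHom

/-- Characterization of the standard law: everything the rest of the proof uses. -/
structure IsStdLaw (F : FormalGroup (A0 p n)) : Prop where
  comm : F.IsComm
  /-- mod `p`: `[p]_F (X) = ∑^F_{j=1..n} u_j X^{p^j}`. -/
  pSeries : ∀ {S : Type} [CommRing S] (χ : A0 p n →+* S), (p : S) = 0 →
    mulSeries (F.map χ) p = fgSumFin (F.map χ)
      (fun j : Fin n => PowerSeries.C (χ (uA p n (j + 1))) * PowerSeries.X ^ (p ^ ((j : ℕ) + 1)))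
  /-- the logarithm -/
  logEq : ∀ {S : Type} [CommRing S] [Algebra ℚ S] (χ : A0 p n →+* S),
    PowerSeries.subst (F.map χ).toPowerSeries
        (logSeries p (lam p n (fun j => χ (uA p n j)))) =
      PowerSeries.subst (MvPowerSeries.X 0 : MvPowerSeries (Fin 2) S)
        (logSeries p (lam p n (fun j => χ (uA p n j)))) +
      PowerSeries.subst (MvPowerSeries.X 1 : MvPowerSeries (Fin 2) S)
        (logSeries p (lam p n (fun j => χ (uA p n j))))
  /-- at `u = 0` the law only has monomials of total degree `≡ 1 mod q - 1`. -/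
  homog : ∀ d : Fin 2 →₀ ℕ, ¬ ((p ^ n - 1) ∣ (d 0 + d 1 - 1)) → 1 ≤ d 0 + d 1 →
    MvPowerSeries.coeff d (F.map (evalZero p n)).toPowerSeries = 0

/-- MAIN THEOREM OF MODULE C1. -/
theorem exists_stdLaw (hn : 1 ≤ n) : ∃ F : FormalGroup (A0 p n), IsStdLaw p n F := sorry

/-- The standard law. -/
noncomputable def stdLaw (hn : 1 ≤ n) : FormalGroup (A0 p n) := (exists_stdLaw p n hn).choose

theorem stdLaw_spec (hn : 1 ≤ n) : IsStdLaw p n (stdLaw p n hn) :=
  (exists_stdLaw p n hn).choose_spec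

end Crest.Agent.LTSkel
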