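/-
S0351 MODULE C2: ring maps out of `A0`, the laws `Γs` over `K`, `Hs` over `E₀`, `𝐇 k` over `AA k`, and their properties.
All derived from `IsStdLaw` (section (0a),(0b) of the math note).
-/
import Crest.Agent.Lib.LTSkel.StdLaw

set_option autoImplicit false

open Crest.LubinTate

namespace Crest.Agent.LTSkel

variable (p : ℕ) [Fact p.Prime] (n : ℕ) (hn : 1 ≤ n)

/-- `ℤ_[p] → K`. -/
noncomputable def zpToK : ℤ_[p] →+* GaloisField p n :=
  (algebraMap (ZMod p) (GaloisField p n)).comp (PadicInt.toZMod (p := p))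

/-- `ℤ_[p] → W(K)`. -/
noncomputable def zpToW : ℤ_[p] →+* WK p n :=
  (WittVector.map (algebraMap (ZMod p) (GaloisField p n))).comp (WittVector.fromPadicInt p)

/-- `A0 → K`: `u ↦ 0`. -/
noncomputable def cK : A0 p n →+* GaloisField p n :=
  MvPolynomial.eval₂Hom (zpToK p n) (fun _ => 0)

/-- `A0 → E₀`. -/
noncomputable def mapE : A0 p n →+* LTRing p n :=
  MvPolynomial.eval₂Hom ((MvPowerSeries.C (σ := Fin (n - 1)) (R := WK p n)).comp (zpToW p n))
    (fun j => MvPowerSeries.X j)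

/-- `A0 → AA k`: `u_j ↦ 0` for `j < k`, `u_{k+j} ↦ w_j`. -/
noncomputable def mapA (k : ℕ) : A0 p n →+* AA p n k :=
  MvPolynomial.eval₂Hom ((MvPowerSeries.C (σ := Fin (n - k)) (R := GaloisField p n)).comp (zpToK p n))
    (fun j => if (j : ℕ) + 1 < k then 0 else wA p n k ((j : ℕ) + 1 - k))

/-- `E₀ → AA k`: the quotient by `I_k` (`k ≥ 1`). -/
noncomputable def qE (k : ℕ) : LTRing p n →+* AA p n k := sorry

/-- Honda law over `K`. -/
noncomputable def Γs : FormalGroup (GaloisField p n) := (stdLaw p n hn).map (cK p n)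
/-- Standard deformation over `E₀`. -/
noncomputable def Hs : FormalGroup (LTRing p n) := (stdLaw p n hn).map (mapE p n)
/-- Standard family over the stratum `k`. -/
noncomputable def HH (k : ℕ) : FormalGroup (AA p n k) := (stdLaw p n hn).map (mapA p n k)

instance : (Γs p n hn).IsComm := sorry
instance : (Hs p n hn).IsComm := sorry
instance (k : ℕ) : (HH p n hn k).IsComm := sorry

theorem Hs_reduces : (Hs p n hn).map (LTRing.residue p n) = Γs p n hn := sorry
theorem HH_reduces (k : ℕ) :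
    (HH p n hn k).map (MvPowerSeries.constantCoeff (σ := Fin (n - k))) = Γs p n hn := sorry
theorem qE_comp_mapE (k : ℕ) : (qE p n k).comp (mapE p n) = mapA p n k := sorry
theorem qE_ker (k : ℕ) (hk : 1 ≤ k) (hkn : k ≤ n) :
    RingHom.ker (qE p n k) = heightIdeal p n (Hs p n hn) k := sorry
theorem qE_surjective (k : ℕ) (hk : 1 ≤ k) (hkn : k ≤ n) : Function.Surjective (qE p n k) := sorry

theorem Γs_pSeries : mulSeries (Γs p n hn) p = PowerSeries.X ^ (p ^ n) := sorry
theorem Γs_C (c : GaloisField p n) :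
    IsFGHom (Γs p n hn) (Γs p n hn) (PowerSeries.C c * PowerSeries.X) := sorry
theorem Γs_Frob : IsFGHom (Γs p n hn) (Γs p n hn) (PowerSeries.X ^ p) := sorry

/-- `[p]` on the stratum `k`:  `∑^𝐇_{j=0..r} w_j X^{p^{k+j}}`, `w_r = 1`. -/
theorem HH_pSeries (k : ℕ) (hk : 1 ≤ k) (hkn : k ≤ n) :
    mulSeries (HH p n hn k) p = fgSumFin (HH p n hn k)
      (fun j : Fin (n - k + 1) =>
        PowerSeries.C (wA p n k j) * PowerSeries.X ^ (p ^ (k + (j : ℕ)))) := sorry

/-- Height ideals of the standard law. `I_h = (p, u_1, …, u_{h-1})`, `1 ≤ h ≤ n`. -/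
theorem heightIdeal_Hs (h : ℕ) (hh : 1 ≤ h) (hhn : h ≤ n) :
    heightIdeal p n (Hs p n hn) h = Ideal.span ((fun j => uE p n j) '' {j | j < h}) := sorry

theorem heightIdeal_Hs_isPrime (h : ℕ) (hhn : h ≤ n) :
    (heightIdeal p n (Hs p n hn) h).IsPrime := sorry

/-- `I_{k+1} = I_k + (u_k)`, `k<n`. -/
theorem heightIdeal_Hs_succ (k : ℕ) (hk : k < n) :
    heightIdeal p n (Hs p n hn) (k + 1) = heightIdeal p n (Hs p n hn) k ⊔ Ideal.span {uE p n k} := sorry

end Crest.Agent.LTSkel
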