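/-
S0351 MODULE C4: `Γ` with `[p] = X^q` over `K` is isomorphic over `K` to `Γs`.
Math note (0c): Lazard's symmetric 2-cocycle lemma over a field + p-series comparison.
-/
import Crest.Agent.Lib.LTSkel.Std

set_option autoImplicit false

open Crest.LubinTate

namespace Crest.Agent.LTSkel

variable (p : ℕ) [Fact p.Prime] (n : ℕ) (hn : 1 ≤ n)

/-- Two commutative laws over `K = F_q` with `[p] = X^q` are isomorphic over `K`. -/
theorem exists_iso_of_pSeries (Γ₁ Γ₂ : FormalGroup (GaloisField p n)) [Γ₁.IsComm] [Γ₂.IsComm]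
    (h₁ : mulSeries Γ₁ p = PowerSeries.X ^ (p ^ n)) (h₂ : mulSeries Γ₂ p = PowerSeries.X ^ (p ^ n)) :
    ∃ β : PowerSeries (GaloisField p n), PowerSeries.coeff 1 β = 1 ∧ IsFGHom Γ₁ Γ₂ β := sorry

end Crest.Agent.LTSkel
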