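/-
S0351 MODULE D: from the universal `H` to the standard law.  Math note (0d),(0e),(0f).
-/
import Crest.Agent.Lib.LTSkel.Lazard
import Crest.Agent.Lib.LTSkel.FGAlgebra

set_option autoImplicit false

open Crest.LubinTate

namespace Crest.Agent.LTSkel

variable (p : ℕ) [Fact p.Prime] (n : ℕ) (hn : 1 ≤ n)

/-- An endomorphism of `Γs` vanishing to order `M`. -/
def IsSmallEnd (M : ℕ) (π : PowerSeries (GaloisField p n)) : Prop :=
  IsFGHom (Γs p n hn) (Γs p n hn) π ∧ ∀ i < M, PowerSeries.coeff i π = 0

/-- The stabilizer action on the standard law, with the ideal `P` stable and the soft continuity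
statement.  This is all that the analysis (sections 1, 2 of the note) uses. -/
structure StableFamily (P : Ideal (LTRing p n)) where
  M0 : ℕ
  φ : PowerSeries (GaloisField p n) → (LTRing p n →ₐ[WK p n] LTRing p n)
  θ : PowerSeries (GaloisField p n) → PowerSeries (LTRing p n)
  residue_comp : ∀ π, IsSmallEnd p n hn M0 π →
    (LTRing.residue p n).comp (φ π).toRingHom = LTRing.residue p n
  isHom : ∀ π, IsSmallEnd p n hn M0 π → IsFGHom ((Hs p n hn).map (φ π).toRingHom) (Hs p n hn) (θ π)
  reduces : ∀ π, IsSmallEnd p n hn M0 π →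
    PowerSeries.map (LTRing.residue p n) (θ π) = aOf (Γs p n hn) π
  stable : ∀ π, IsSmallEnd p n hn M0 π → Ideal.comap (φ π).toRingHom P = P
  /-- soft continuity, (0e) -/
  cont : ∀ c : ℕ, ∃ M, ∀ π, IsSmallEnd p n hn M π →
    (∀ j : Fin (n - 1), (φ π) (MvPowerSeries.X j) - MvPowerSeries.X j ∈ (mE p n) ^ c) ∧
    ∀ j < c, PowerSeries.coeff j (θ π) - PowerSeries.coeff j PowerSeries.X ∈ (mE p n) ^ c

variable {p n}

/-- Root extraction in the automorphism group of a law with `[p] = X^q`: every automorphism close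
enough to `X` is an `N`-th compositional power of an automorphism close to `X`. (0e). -/
theorem exists_root (Γ : FormalGroup (GaloisField p n)) [Γ.IsComm]
    (hΓ : mulSeries Γ p = PowerSeries.X ^ (p ^ n)) (N : ℕ) (hN : 1 ≤ N) (M : ℕ) :
    ∃ M', ∀ c, IsFGAut Γ c → (∀ i < M', PowerSeries.coeff i c = PowerSeries.coeff i PowerSeries.X) →
      ∃ b, IsFGAut Γ b ∧ (∀ i < M, PowerSeries.coeff i b = PowerSeries.coeff i PowerSeries.X) ∧
        (fun f => PowerSeries.subst f b)^[N] PowerSeries.X = c := sorry

variable (Γ : FormalGroup (GaloisField p n)) [Γ.IsComm]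
  (hΓ : mulSeries Γ p = PowerSeries.X ^ (p ^ n))
  (H : FormalGroup (LTRing p n)) [H.IsComm] (hH : IsUniversalDeformation p n Γ H)

/-- Existence and uniqueness of the stabilizer maps. -/
theorem exists_stabilizerMap (g : PowerSeries (GaloisField p n)) (hg : IsFGAut Γ g) :
    ∃ φ, IsStabilizerMap p n H g φ := sorry
theorem stabilizerMap_unique {g : PowerSeries (GaloisField p n)} (hg : IsFGAut Γ g)
    {φ φ' : LTRing p n →ₐ[WK p n] LTRing p n} (h : IsStabilizerMap p n H g φ)
    (h' : IsStabilizerMap p n H g φ') : φ = φ' := sorry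
/-- composition -/
theorem stabilizerMap_comp {g g' : PowerSeries (GaloisField p n)} (hg : IsFGAut Γ g)
    (hg' : IsFGAut Γ g') {φ φ' : LTRing p n →ₐ[WK p n] LTRing p n}
    (h : IsStabilizerMap p n H g φ) (h' : IsStabilizerMap p n H g' φ') :
    IsStabilizerMap p n H (PowerSeries.subst g' g) (φ.comp φ') := sorry
theorem stabilizerMap_id {φ : LTRing p n →ₐ[WK p n] LTRing p n}
    (h : IsStabilizerMap p n H PowerSeries.X φ) : φ = AlgHom.id _ _ := sorry

/-- The comparison `H ≈ Hs`: a `W(K)`-automorphism `Φ` of `E₀` and the transport of stable ideals (0d). -/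
theorem exists_comparison :
    ∃ Φ : LTRing p n ≃ₐ[WK p n] LTRing p n,
      (∀ h, (heightIdeal p n H h).map Φ.toRingEquiv.toRingHom = heightIdeal p n (Hs p n hn) h) ∧
      ∀ (M : ℕ) (P : Ideal (LTRing p n)), IsStableIdeal p n Γ H M P →
        Nonempty (StableFamily p n hn (P.map Φ.toRingEquiv.toRingHom)) := sorry

/-- Stable ideals for level `M` are stable for any deeper level. Height ideals are stable. -/
theorem heightIdeal_isStable (M : ℕ) (h : ℕ) : IsStableIdeal p n Γ H M (heightIdeal p n H h) := sorry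

/-- (0f) a minimal prime over a stable radical ideal is stable for a deeper level. -/
theorem minimalPrime_stable (M : ℕ) (J Q : Ideal (LTRing p n)) (hJ : IsStableIdeal p n Γ H M J)
    (hQ : Q ∈ J.minimalPrimes) : ∃ M', IsStableIdeal p n Γ H M' Q := sorry

end Crest.Agent.LTSkel
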