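/-
S0351 MODULE F: the field and the point. Math note (0h).
-/
import Crest.Agent.Lib.LTSkel.Defs

set_option autoImplicit false

open Crest.LubinTate

namespace Crest.Agent.LTSkel

variable (p : ℕ) [Fact p.Prime] (n : ℕ)

/-- A point of `V(P)` with `x ≠ 0` in a complete algebraically closed ultrametric field.  -/
theorem exists_point (P : Ideal (LTRing p n)) [P.IsPrime] (x : LTRing p n) (hx : x ∉ P)
    (hxm : x ∈ mE p n) :
    ∃ (R : Type) (_ : NontriviallyNormedField R) (_ : IsUltrametricDist R) (_ : CompleteSpace R)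
      (_ : IsAlgClosed R) (χ : LTRing p n →+* R),
      (∀ a ∈ P, χ a = 0) ∧ χ x ≠ 0 ∧ (∀ a, ‖χ a‖ ≤ 1) ∧ (∃ ρ : ℝ, ρ < 1 ∧ ∀ a ∈ mE p n, ‖χ a‖ ≤ ρ) := sorry

end Crest.Agent.LTSkel
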