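/-
S0351: the two strata at the level of `E₀` (from `StableFamily`), and the final statement for `Hs`.
-/
import Crest.Agent.Lib.LTSkel.Family
import Crest.Agent.Lib.LTSkel.Field
import Crest.Agent.Lib.LTSkel.CharPMain

set_option autoImplicit false

open Crest.LubinTate

namespace Crest.Agent.LTSkel

variable (p : ℕ) [Fact p.Prime] (n : ℕ) (hn : 1 ≤ n)

/-- Char 0 stratum (MODULE B; math note section 1). -/
theorem charZero_step (P : Ideal (LTRing p n)) [P.IsPrime] (hp : (p : LTRing p n) ∉ P)
    (fam : StableFamily p n hn P) : P = ⊥ := sorry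

/-- Char p stratum: reduction to `charP_analysis` (math note (0g),(0h)). -/
theorem charP_step (k : ℕ) (hk : 1 ≤ k) (hkn : k < n) (P : Ideal (LTRing p n)) [P.IsPrime]
    (hI : heightIdeal p n (Hs p n hn) k ≤ P) (hu : uE p n k ∉ P)
    (fam : StableFamily p n hn P) : P = heightIdeal p n (Hs p n hn) k := sorry

/-- Every stable prime of the standard law is a height ideal. -/
theorem stable_prime_std (P : Ideal (LTRing p n)) [P.IsPrime] (fam : StableFamily p n hn P) :
    ∃ h, h ≤ n ∧ P = heightIdeal p n (Hs p n hn) h := sorry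

end Crest.Agent.LTSkel
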