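/-
S0351: final assembly (`result` follows).
-/
import Crest.Agent.Lib.LTSkel.Steps

set_option autoImplicit false

open Crest.LubinTate

namespace Crest.Agent.LTSkel

theorem S0351_main
    (p : ℕ) [Fact p.Prime] (n : ℕ) (hn : 1 ≤ n)
    (Γ : FormalGroup (GaloisField p n)) [Γ.IsComm]
    (hΓ : mulSeries Γ p = PowerSeries.X ^ (p ^ n))
    (H : FormalGroup (LTRing p n)) [H.IsComm] (hH : IsUniversalDeformation p n Γ H)
    (M : ℕ) (hM : 1 ≤ M) :
    (∀ P : Ideal (LTRing p n),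
        (P.IsPrime ∧ IsStableIdeal p n Γ H M P) ↔ ∃ h : ℕ, h ≤ n ∧ P = heightIdeal p n H h) ∧
    (∀ J : Ideal (LTRing p n),
        (J.IsRadical ∧ IsStableIdeal p n Γ H M J) ↔
          (∃ h : ℕ, h ≤ n ∧ J = heightIdeal p n H h) ∨ J = ⊤) := by
  -- comparison with the standard law
  obtain ⟨Φ, hΦI, hΦP⟩ := exists_comparison (p := p) (n := n) hn Γ H
  have hprime_of_stable : ∀ (M' : ℕ) (P : Ideal (LTRing p n)), P.IsPrime →
      IsStableIdeal p n Γ H M' P → ∃ h : ℕ, h ≤ n ∧ P = heightIdeal p n H h := by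
    intro M' P hP hS
    obtain ⟨fam⟩ := hΦP M' P hS
    haveI : (P.map Φ.toRingEquiv.toRingHom).IsPrime := sorry
    obtain ⟨h, hh, he⟩ := stable_prime_std p n hn (P.map Φ.toRingEquiv.toRingHom) fam
    refine ⟨h, hh, ?_⟩
    sorry
  have hIprime : ∀ h, h ≤ n → (heightIdeal p n H h).IsPrime := by
    intro h hh
    have := heightIdeal_Hs_isPrime p n hn h hh
    sorry
  have hstable : ∀ h, IsStableIdeal p n Γ H M (heightIdeal p n H h) :=
    fun h => heightIdeal_isStable Γ H M h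
  refine ⟨fun P => ⟨fun hP => hprime_of_stable M P hP.1 hP.2, ?_⟩, fun J => ⟨?_, ?_⟩⟩
  · rintro ⟨h, hh, rfl⟩
    exact ⟨hIprime h hh, hstable h⟩
  · rintro ⟨hJ, hS⟩
    -- minimal primes are stable for a deeper level, hence height ideals; a chain
    sorry
  · rintro (⟨h, hh, rfl⟩ | rfl)
    · exact ⟨(hIprime h hh).isRadical, hstable h⟩
    · refine ⟨sorry, ?_⟩
      sorry

end Crest.Agent.LTSkel
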